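import Vale.Agent.P002.H85.Fam.Main

/-!
# P002: potential density for families obtained by algebraic constructions
-/

namespace Vale.Agent.Results.P002.AlgebraicConstructions

open Matrix Vale.Agent.P002R.Orb Vale.Agent.P002.H326J Vale.Agent.P002.H2 Vale.Agent.P002.H252
  Vale.Agent.P002.H85F

/-- A family is a set `T` of complex points with coordinates indexed by any set `E`; a family of
representations of a group `G` is one with `E = G × Fin r × Fin r`, the coordinates being the
matrix entries of all elements of `G`. `T` is good if, over some number field `L`, the points of
`T` with coordinates in `L` with a common denominator (`Bdd L x`) are Zariski dense in `T`.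
`Built` is the smallest class of families which contains the typed representations and all sets of
representations of a finitely generated group among which those over the integers of one number
field are dense, all characters of a finitely generated group, affine spaces and bounded points over
number fields, and is closed under products, finite unions, maps by integral polynomials of bounded
degree, subquotients `ker A / im B` for matrices `A`, `B` of integral polynomials (at the points
where the dimensions are generic; with the action of operators given by integral polynomials of
bounded degree), adjoining `n`-th roots of characters, relatively open subsets and adding points of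
the closure. For example, direct sums, tensor products, Schur functors, pull-backs, inductions, the
representations of `π_1(X)` on the higher direct images `R^i g_* V` of a family of local systems
`V` under a topological fibration `g : Z → X`, and twists by roots of the determinant can be written
in this way.

(1) Built families are good.
(2) Let `G = ⟨ι | R⟩` be any finitely generated group (e.g. the fundamental group of any smooth
quasi-projective variety), `r` any rank, `w j` any elements (meridians), `C j` any quasi-unipotent
classes (none if `s = 0`), `Y = YW` the set of semisimple representations with `ρ(w j) ∈ C j`, and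
`T n` countably many good families of representations, contained in `Y`. If each very general point
of an open subset `U` of `Y` (each point of `U` outside countably many closed subsets with dense
complement) is conjugate to a member of some `T n`, or typed, then some number field `L` makes the
`𝓞 L`-integral points Zariski dense in `U`. (3) In particular, this holds for `U = Y` if it holds
for all points of `Y`. -/
theorem result :
    (∀ (E : Type) (T : Set (E → ℂ)), Built T → Good T) ∧
    ∀ (ι : Type) [Finite ι] (R : Set (FreeGroup ι)) (r s : ℕ) (w : Fin s → FreeGroup ι)
      (C : Fin s → SpecialLinearGroup (Fin r) ℂ)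
      (_ : ∀ j z, IsEigenvalue (C j) z → ∃ n : ℕ, 0 < n ∧ z ^ n = 1)
      (T : ℕ → Set (FreeGroup ι × Fin r × Fin r → ℂ))
      (_ : ∀ n, Good (T n)) (_ : ∀ n, T n ⊆ pt '' YW R w C),
      (∀ (P : Set (MvPolynomial (ι × Fin r × Fin r) ℂ))
        (B : ℕ → Set (MvPolynomial (ι × Fin r × Fin r) ℂ)),
        (∀ n, IsDenseIn (OpenIn (OpenIn (YW R w C) P) (B n)) (OpenIn (YW R w C) P)) →
        (∀ X ∈ OpenIn (YW R w C) P, (∀ n, ∃ F ∈ B n, value F X ≠ 0) → IsTyped R w X ∨
          ∃ n, ∃ g : SpecialLinearGroup (Fin r) ℂ, pt (fun p => g * X p * g⁻¹) ∈ T n) →
        ∃ L : IntermediateField ℚ ℂ, FiniteDimensional ℚ L ∧
          IsDense R L (OpenIn (YW R w C) P)) ∧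
      ((∀ X ∈ YW R w C, IsTyped R w X ∨
          ∃ n, ∃ g : SpecialLinearGroup (Fin r) ℂ, pt (fun p => g * X p * g⁻¹) ∈ T n) →
        ∃ L : IntermediateField ℚ ℂ, FiniteDimensional ℚ L ∧ IsDense R L (YW R w C)) := by
  refine ⟨fun E T h => h.good, fun ι _ R r s w C hC T hT hTY =>
    ⟨fun P B hB hcov => typed_or_good hC P T hT hTY B hB hcov, fun h => ?_⟩⟩
  have h1 := typed_or_good hC {1} T hT hTY (fun _ => {1}) (fun n => by
    rw [openIn_one, openIn_one]
    exact fun F hF => hF) (fun X hX _ => h X (by rwa [openIn_one] at hX))
  rwa [openIn_one] at h1

end Vale.Agent.Results.P002.AlgebraicConstructions
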