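import Vale.Agent.P002.H85.Fin

/-!
# P002: components of `Y` with one integral point

For every finitely generated group `G = ⟨ι | R⟩`, every `r`, all elements `w j` and all classes `C j`
with algebraic eigenvalues (e.g. quasi-unipotent classes, or none): if the closure of an irreducible
component `V` of `Y` contains one integral point (over any number field), then the integral points of
bounded degree are dense in `V`. So the closure of the integral points of `Y` is a union of
irreducible components of `Y`, and the weaker form of Q1 holds for `Y` if and only if each
irreducible component contains an integral point; then bounded degree suffices.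
-/

namespace Vale.Agent.Results.P002.OneIntegralPoint

open Matrix Vale.Agent.P002R.Orb Vale.Agent.P002.H326J Vale.Agent.P002.H85

/-- `G = ⟨ι | R⟩` is any finitely generated group (e.g. the fundamental group of any smooth
quasi-projective variety), `r` any rank, the `w j` are any elements (meridians) and the `C j` any
classes with algebraic eigenvalues (e.g. quasi-unipotent classes; none if `s = 0`), and `Y = YW` is
the set of the semisimple representations with `ρ(w j) ∈ C j`, whose isomorphism classes are the
points of `Y ⊆ M_r(ℂ)`. All closures and irreducible components below are taken for the Zariski
topology of `M_r(ℂ)`, whose closed sets are the common zero sets of invariant functions.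

(1) `Y` has finitely many irreducible components `V`, and they cover `Y`.
(2) There is a bound `D` such that: for every irreducible component `V` of `Y` whose closure in
`M_r(ℂ)` contains one integral point, over any number field, the integral points of `V` over number
fields of degree at most `D` are dense in `V`, and even the representations in `V` with entries in
the ring of integers of a number field of degree at most `D` are dense (also in the representation
space);
(3) the closure in `Y` of the set of all integral points of `Y` (over all number fields) is the union
of the irreducible components of `Y` which contain an integral point, and it is also the closure of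
the set of the representations with entries in rings of integers of degree at most `D`;
(4) the weaker form of Q1 holds for `Y` if and only if each irreducible component of `Y` contains an
integral point, and then number fields of degree at most `D` suffice.
(5) A semisimple representation is an integral point over some number field if and only if all its
traces are algebraic integers. -/
theorem result {ι : Type} [Finite ι] (R : Set (FreeGroup ι)) {r s : ℕ} (w : Fin s → FreeGroup ι)
    (C : Fin s → SpecialLinearGroup (Fin r) ℂ)
    (hC : ∀ j z, IsEigenvalue (C j) z → IsIntegral ℚ z) :
    ({V | IsIrrComp R (YW R w C) V}.Finite ∧ ⋃₀ {V | IsIrrComp R (YW R w C) V} = YW R w C) ∧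
    (∃ D : ℕ,
      (∀ V, IsIrrComp R (YW R w C) V → (intPoints R (closureIn R (YNone R r) V)).Nonempty →
        IsDenseDeg R D V ∧ IsDenseRepDeg D V) ∧
      closureIn R (YW R w C) (intPoints R (YW R w C)) =
        ⋃₀ {V | IsIrrComp R (YW R w C) V ∧ (intPoints R V).Nonempty} ∧
      closureIn R (YW R w C) (repsDeg D (YW R w C)) =
        ⋃₀ {V | IsIrrComp R (YW R w C) V ∧ (intPoints R V).Nonempty} ∧
      (IsDenseAll R (YW R w C) ↔ ∀ V, IsIrrComp R (YW R w C) V → (intPoints R V).Nonempty) ∧
      (IsDenseAll R (YW R w C) → IsDenseDeg R D (YW R w C) ∧ IsDenseRepDeg D (YW R w C))) ∧
    ∀ X ∈ YNone R r,
      (∃ L : IntermediateField ℚ ℂ, FiniteDimensional ℚ L ∧ IsIntegralPoint R L X) ↔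
        ∀ x, IsIntegral ℤ (FreeGroup.lift X x).1.trace :=
  ⟨comps_finite, main hC, fun _ hX => (integral_iff hX).symm⟩

end Vale.Agent.Results.P002.OneIntegralPoint
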