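import Vale.Agent.P002.H85.Typed

/-!
# P002: components of `Y` with one typed point
-/

namespace Vale.Agent.Results.P002.OneTypedPoint

open Matrix Vale.Agent.P002R.Orb Vale.Agent.P002.H326J Vale.Agent.P002.H85 Vale.Agent.P002.H252

/-- `G = ⟨ι | R⟩` is any finitely generated group (e.g. the fundamental group of any smooth
quasi-projective variety), `r` any rank, the `w j` are any elements (meridians) and the `C j` any
quasi-unipotent classes (none if `s = 0`); the points of `Y = YW` are the semisimple representations
with `ρ(w j) ∈ C j`. A point `X` of `Y` is typed (`IsTyped`) if for every irreducible
subrepresentation `W` of `X` there are a finite `G`-equivariant family `O` of maps of subgroups of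
finite index of `G` to orbifold groups of curves for which the `w j` are peripheral, with common
kernel `K`, and a normal subgroup `N` of `G` contained in `K`, such that the character of `W` is
integral on `N` and some term of the derived series of some subgroup of finite index of `K` acts on
`W` through the linear span of the image of `N` (see `HasType`, `TypeDatum.Valid`).

There is a bound `D` such that
(1) every typed point of `Y` lies on an irreducible component `V` of `Y` (Zariski topology of
`M_r(ℂ)`) in which the integral points over number fields of degree at most `D`, and even the
representations with entries in the ring of integers of a number field of degree at most `D`, are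
dense;
(2) if each irreducible component of `Y` contains one typed point which is on no other irreducible
component, then the integral points over all number fields are dense in `Y` (the weaker form of Q1),
and number fields of degree at most `D` suffice. -/
theorem result {ι : Type} [Finite ι] (R : Set (FreeGroup ι)) {r s : ℕ} (w : Fin s → FreeGroup ι)
    (C : Fin s → SpecialLinearGroup (Fin r) ℂ)
    (hC : ∀ j z, IsEigenvalue (C j) z → ∃ n : ℕ, 0 < n ∧ z ^ n = 1) :
    ∃ D : ℕ,
      (∀ X ∈ YW R w C, IsTyped R w X → ∃ V, IsIrrComp R (YW R w C) V ∧ X ∈ V ∧
        IsDenseDeg R D V ∧ IsDenseRepDeg D V) ∧
      ((∀ V, IsIrrComp R (YW R w C) V → ∃ X ∈ V, IsTyped R w X ∧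
          ∀ V', IsIrrComp R (YW R w C) V' → X ∈ V' → V' = V) →
        IsDenseAll R (YW R w C) ∧ IsDenseDeg R D (YW R w C) ∧ IsDenseRepDeg D (YW R w C)) :=
  typed_main hC

end Vale.Agent.Results.P002.OneTypedPoint
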